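import Vale.Agent.P181.DG.Defs
import Vale.Agent.P181.SZR4.Few

set_option autoImplicit false

/-!
# P181, DG (D5): few letters
-/

open MvPolynomial

namespace Vale.Agent.P181.DG5.H887

open Vale.Agent.P181.T4 (HW rowOp rowOp_apply mem_HW)
open Vale.Agent.P181.SZ
open Vale.Agent.P181.SZR4
open Vale.Agent.P181.DG

lemma PKT_le_HW (m S : ℕ) (σ : Type) [Fintype σ] (d : σ → ℕ) (t : ℕ) (mu : Fin m → ℕ) :
    PKT m S σ d t mu ≤ HW m (σ ⊕ Fin t) mu := fun _ hf => hf.1

instance finiteDimensional_PKT (m S : ℕ) (σ : Type) [Fintype σ] (d : σ → ℕ) (t : ℕ)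
    (mu : Fin m → ℕ) : FiniteDimensional ℂ (PKT m S σ d t mu) :=
  Submodule.finiteDimensional_of_le (PKT_le_HW m S σ d t mu)

/-- Families of highest weight polynomials with pairwise different profiles of large columns. -/
lemma sum_finrank_le' {m J S : ℕ} {mu : Fin m → ℕ} {ι : Type} [Fintype ι] (σ : ι → Type)
    [∀ i, Fintype (σ i)] (d : ∀ i, σ i → ℕ) (t : ι → ℕ) (g : ∀ i, σ i ⊕ Fin (t i) → Fin J)
    (hg : ∀ i, Function.Injective (g i)) (D : ι → Fin J → ℕ) (hD : Function.Injective D)
    (hS : ∀ i j, S ≤ d i j) (hS1 : 1 ≤ S)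
    (h1 : ∀ i j, D i (g i (Sum.inl j)) = d i j)
    (h2 : ∀ i j, j ∉ Set.range (fun x : σ i => g i (Sum.inl x)) → D i j = 0) :
    ∑ i, Module.finrank ℂ (PKT m S (σ i) (d i) (t i) mu) ≤
      Module.finrank ℂ (HW m (Fin J) mu) := by
  classical
  have hcol : ∀ i (f : PKT m S (σ i) (d i) (t i) mu) (v : Fin m × Fin J →₀ ℕ),
      coeff v (rename (vm m (g i)) (f : MvPolynomial (Fin m × (σ i ⊕ Fin (t i))) ℂ)) ≠ 0 →
      (fun j => if S ≤ ∑ r, v (r, j) then ∑ r, v (r, j) else 0) = D i := by
    intro i f v hv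
    obtain ⟨u, hu, hu1, hu2⟩ := coeff_ren (hg i) hv
    funext j
    by_cases hj : j ∈ Set.range (g i)
    · obtain ⟨j' | j', rfl⟩ := hj
      · have h3 : ∑ r, v (r, g i (Sum.inl j')) = d i j' := by
          rw [← (f.2.2.1 u hu).1 j']
          exact Finset.sum_congr rfl fun r _ => hu1 r (Sum.inl j')
        rw [h3, if_pos (hS i j'), h1]
      · have h3 : ∑ r, v (r, g i (Sum.inr j')) < S := by
          have := (f.2.2.1 u hu).2 j'
          rw [Finset.sum_congr rfl fun r _ => hu1 r (Sum.inr j')]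
          exact this
        rw [if_neg (not_le.2 h3), h2]
        rintro ⟨x, hx⟩
        have := hg i hx
        simp at this
    · have h3 : ∑ r, v (r, j) = 0 := Finset.sum_eq_zero fun r _ => hu2 r j hj
      rw [h3, if_neg (by omega), h2]
      rintro ⟨x, hx⟩
      exact hj ⟨_, hx⟩
  let L : (∀ i, PKT m S (σ i) (d i) (t i) mu) →ₗ[ℂ] HW m (Fin J) mu :=
    { toFun := fun F => ∑ i, ⟨rename (vm m (g i))
          (F i : MvPolynomial (Fin m × (σ i ⊕ Fin (t i))) ℂ), ren_mem_HW (hg i) (F i).2.1⟩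
      map_add' := fun F G => by
        rw [← Finset.sum_add_distrib]
        refine Finset.sum_congr rfl fun i _ => Subtype.ext ?_
        exact map_add (rename (vm m (g i)))
          (F i : MvPolynomial (Fin m × (σ i ⊕ Fin (t i))) ℂ) (G i)
      map_smul' := fun c F => by
        rw [RingHom.id_apply, Finset.smul_sum]
        refine Finset.sum_congr rfl fun i _ => Subtype.ext ?_
        exact map_smul (rename (vm m (g i))) c
          (F i : MvPolynomial (Fin m × (σ i ⊕ Fin (t i))) ℂ) }
  have hL : Function.Injective L := by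
    rw [← LinearMap.ker_eq_bot, LinearMap.ker_eq_bot']
    intro F hF
    funext i
    apply Subtype.ext
    have h3 : rename (vm m (g i)) (F i : MvPolynomial (Fin m × (σ i ⊕ Fin (t i))) ℂ) = 0 := by
      ext v
      rw [coeff_zero]
      by_contra hv
      have h4 : coeff v ((L F : HW m (Fin J) mu) : MvPolynomial (Fin m × Fin J) ℂ) = 0 := by
        rw [hF]
        exact coeff_zero v
      have h5 : ((L F : HW m (Fin J) mu) : MvPolynomial (Fin m × Fin J) ℂ) =
          ∑ i, rename (vm m (g i)) (F i : MvPolynomial (Fin m × (σ i ⊕ Fin (t i))) ℂ) := by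
        change ((∑ i, (⟨rename (vm m (g i)) (F i : MvPolynomial (Fin m × (σ i ⊕ Fin (t i))) ℂ),
          ren_mem_HW (hg i) (F i).2.1⟩ : HW m (Fin J) mu) : HW m (Fin J) mu) :
            MvPolynomial (Fin m × Fin J) ℂ) = _
        rw [AddSubmonoidClass.coe_finsetSum]
      rw [h5, coeff_sum, Finset.sum_eq_single i] at h4
      · exact hv h4
      · intro i' _ hi'
        by_contra h6
        exact hi' (hD ((hcol i' (F i') v h6).symm.trans (hcol i (F i) v hv)))
      · intro h
        exact absurd (Finset.mem_univ i) h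
    exact (rename_injective _ (vm_injective (hg i))) (h3.trans (map_zero _).symm)
  rw [← Module.finrank_pi_fintype ℂ]
  exact LinearMap.finrank_le_finrank_of_injective hL

lemma mem_KT {w S : ℕ} {k : Multiset ℕ} (hk : k ∈ KT w S) : ∀ x ∈ k, S ≤ x := by
  rw [KT, Finset.mem_biUnion] at hk
  obtain ⟨u, _, hu⟩ := hk
  exact (Finset.mem_filter.1 hu).2

/-- The columns: the large ones first. -/
def gcol {J n : ℕ} (h : n ≤ J) : Fin n ⊕ Fin (J - n) → Fin J :=
  Sum.elim (Fin.castLE h) (fun j => ⟨n + j, by omega⟩)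

lemma gcol_injective {J n : ℕ} (h : n ≤ J) : Function.Injective (gcol h) := by
  rintro (x | x) (y | y) hxy
  · simp only [gcol, Sum.elim_inl] at hxy
    rw [Fin.castLE_injective h hxy]
  · simp only [gcol, Sum.elim_inl, Sum.elim_inr, Fin.ext_iff, Fin.val_castLE] at hxy
    omega
  · simp only [gcol, Sum.elim_inl, Sum.elim_inr, Fin.ext_iff, Fin.val_castLE] at hxy
    omega
  · simp only [gcol, Sum.elim_inr, Fin.mk.injEq] at hxy
    congr 1
    apply Fin.ext
    omega

open scoped Classical in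
/-- **(D5)** -/
theorem fewT : FewT := by
  intro m S J mu hS1
  set A := (KT (∑ i, mu i) S).filter (fun k => Multiset.card k ≤ J) with hA
  have hmem : ∀ k ∈ A, Multiset.card k ≤ J ∧ (∀ x ∈ k, S ≤ x) := by
    intro k hk
    rw [hA, Finset.mem_filter] at hk
    exact ⟨hk.2, mem_KT hk.1⟩
  have hpos : ∀ k ∈ A, ∀ x ∈ k, 0 < x := fun k hk x hx =>
    lt_of_lt_of_le (by omega) ((hmem k hk).2 x hx)
  have hlen : ∀ k : A, (k : Multiset ℕ).toList.length ≤ J := fun k => by
    rw [Multiset.length_toList]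
    exact (hmem k k.2).1
  rw [← Finset.sum_coe_sort A]
  have key := sum_finrank_le' (m := m) (J := J) (S := S) (mu := mu) (ι := A)
    (fun k => Fin (k : Multiset ℕ).toList.length)
    (fun k j => (k : Multiset ℕ).toList.get j)
    (fun k => J - (k : Multiset ℕ).toList.length)
    (fun k => gcol (hlen k)) (fun k => gcol_injective (hlen k)) (fun k => pad J k)
    (fun k k' h => Subtype.ext (pad_inj (hpos k k.2) (hpos k' k'.2) (hmem k k.2).1
      (hmem k' k'.2).1 h))
    (fun k j => (hmem k k.2).2 _ (Multiset.mem_toList.1 (List.get_mem _ j))) hS1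
    (fun k j => List.getD_eq_getElem _ _ j.2)
    (fun k j hj => List.getD_eq_default _ _ (by
      by_contra hlt
      rw [not_le] at hlt
      exact hj ⟨⟨j, hlt⟩, Fin.ext rfl⟩))
  refine le_trans (le_of_eq ?_) key
  refine Finset.sum_congr rfl fun k _ => ?_
  rw [NT]
  exact congrArg (fun t => Module.finrank ℂ (PKT m S (Fin (k : Multiset ℕ).toList.length)
    (fun j => (k : Multiset ℕ).toList.get j) t mu))
    (by rw [Multiset.length_toList])

end Vale.Agent.P181.DG5.H887
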